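import Vale.Agent.P089Z.Defs
import Vale.Agent.P089GM.KDefs
import Mathlib.Algebra.Colimit.Module
import Mathlib.Topology.CWComplex.Classical.Basic
import Mathlib.Topology.Homotopy.Contractible

/-! The classifying space for proper actions, its equivariant K-homology with `G`-compact
supports, the group `K_0(C*_r(G))` and the assembly map: the definitions used in the statement. -/

namespace Vale.Agent.P089GT

open Vale.Agent.P089G Vale.Agent.P089Z Vale.Agent.P089.BC Matrix Topology TopologicalSpace Function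
open scoped ZeroAtInfty

/-- The class in a direct limit of an element of the group `A i`. -/
noncomputable def limOf {ι : Type} [Preorder ι] [DecidableEq ι] {A : ι → Type 1}
    [∀ i, AddCommGroup (A i)] (f : ∀ i j, i ≤ j → A i →+ A j) (i : ι) (x : A i) :
    AddCommGroup.DirectLimit A f :=
  AddCommGroup.DirectLimit.of A f i x

/-- There is exactly one homomorphism `μ : A → B` with the property `P`; it is not surjective,
some element has no positive multiple in the image, and `u` is in the image. -/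
def Fails {A : Type 1} {B : Type} [AddCommGroup A] [AddCommGroup B] (P : (A → B) → Prop)
    (u : B) : Prop :=
  ∃ μ : A →+ B, P μ ∧ (∀ μ' : A →+ B, P μ' → μ' = μ) ∧ ¬ Function.Surjective μ ∧
    (∃ x, ∀ m : ℕ, 1 ≤ m → m • x ∉ μ.range) ∧ u ∈ μ.range

/-- There is an injective homomorphism with the property `P`. -/
def ExInj {A B : Type} [AddCommGroup A] [AddCommGroup B] (P : (A → B) → Prop) : Prop :=
  ∃ κ : A →+ B, Function.Injective κ ∧ P κ

/-- The class in `K_0(R)` of an idempotent matrix. -/
def icls {R : Type} [Ring R] (a : Idem R) : KZero R := Pres.of _ _ a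

/-- `κ` is the map of `K_0`-groups induced by the ring homomorphism with graph `r`. -/
def Induces {A B : Type} [Ring A] [Ring B] (r : A → B → Prop) (κ : KZero A → KZero B) : Prop :=
  ∀ q : Idem A, ∃ (e : Matrix (Fin q.n) (Fin q.n) B) (h : e * e = e),
    (∀ j k, r (q.e j k) (e j k)) ∧ κ (icls q) = icls ⟨q.n, e, h⟩

/-- The class of the unit. -/
def unitCls (A : Type) [Ring A] : KZero A := icls ⟨1, 1, one_mul 1⟩

/-- `x = [M + diag(0, 1)] - [diag(0, 1)]`. -/
def IsDiff {B : Type} [Ring B] (M : Matrix (Fin 2) (Fin 2) B) (x : KZero B) : Prop :=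
  ∃ h h', x = icls ⟨2, addDiag M, h⟩ - icls ⟨2, diag01 B, h'⟩

/-! ### The algebras `C*_r(G)` and `C*_r(G) ⊗ 𝒦` -/

section

variable {G K E : Type} [Group G] [NormedAddCommGroup K] [InnerProductSpace ℂ K]
  [NormedAddCommGroup E] [InnerProductSpace ℂ E]

/-- The norm-closed unital algebra generated by a set of operators. -/
noncomputable def gen (S : Set (K →L[ℂ] K)) : Subalgebra ℂ (K →L[ℂ] K) :=
  (Algebra.adjoin ℂ S).topologicalClosure

/-- The same, as a type. -/
def Gen (S : Set (K →L[ℂ] K)) : Type := gen S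

noncomputable instance genRing (S : Set (K →L[ℂ] K)) : Ring (Gen S) := (gen S).toRing

/-- The operator given by an element of the algebra. -/
def Gen.op {S : Set (K →L[ℂ] K)} (x : Gen S) : K →L[ℂ] K := x.1

/-- The left translations `λ_g` on `ℓ²(G)`, a Hilbert space with orthonormal basis `b x`. -/
def lam (b : HilbertBasis G ℂ K) : Set (K →L[ℂ] K) := {T | ∃ g, ∀ x, T (b x) = b (g * x)}

/-- The operators `λ_g ⊗ e_ij` on `ℓ²(G) ⊗ ℓ²(ℕ)`. -/
def lamE (c : HilbertBasis (G × ℕ) ℂ E) : Set (E →L[ℂ] E) :=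
  {T | ∃ g i j, (∀ x, T (c (x, j)) = c (g * x, i)) ∧ ∀ x n, n ≠ j → T (c (x, n)) = 0}

/-- The reduced group C*-algebra `C*_r(G)`: the norm closure of `ℂ[G]` in `B(ℓ²(G))`. -/
abbrev Cr (b : HilbertBasis G ℂ K) : Type := Gen (lam b)

/-- The unitization of `C*_r(G) ⊗ 𝒦`. -/
abbrev St (c : HilbertBasis (G × ℕ) ℂ E) : Type := Gen (lamE c)

/-- The graph of `T ↦ T ⊗ e₀₀`. -/
def Corner (b : HilbertBasis G ℂ K) (c : HilbertBasis (G × ℕ) ℂ E) (T : Cr b) (S : St c) : Prop :=
  IsCorner b c T.op S.op

end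

/-! ### Kasparov's group `KK^G_0(C₀(Y), ℂ)` -/

section

variable {G Y Y' : Type} [Group G] [TopologicalSpace Y] [MulAction G Y] [ContinuousConstSMul G Y]
  [TopologicalSpace Y'] [MulAction G Y'] [ContinuousConstSMul G Y']

variable (G) in
/-- `f` is equivariant. -/
def Equivariant (f : CocompactMap Y Y') : Prop := ∀ (g : G) y, f (g • y) = g • f y

section

variable {H K L : Type} [NormedAddCommGroup H] [InnerProductSpace ℂ H] [CompleteSpace H]
  [NormedAddCommGroup K] [InnerProductSpace ℂ K] [CompleteSpace K]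
  [NormedAddCommGroup L] [InnerProductSpace ℂ L] [CompleteSpace L]

/-- The isometry `v` intertwines the gradings, the representations and the operators. -/
structure Embeds (a : Cycle G Y H) (c : Cycle G Y K) (v : H →ₗᵢ[ℂ] K) : Prop where
  γ : Semiconj v a.γ c.γ
  ρ : ∀ f, Semiconj v (a.ρ f) (c.ρ f)
  U : ∀ g, Semiconj v (a.U g).1 (c.U g).1
  F : Semiconj v a.F c.F

/-- Unitary equivalence. -/
structure UnitEq (a : Cycle G Y H) (b : Cycle G Y K) : Prop where
  ex : ∃ u, Embeds a b u ∧ Surjective u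

/-- Operator homotopy. -/
structure OpHtpy (a b : Cycle G Y H) : Prop where
  ex : ∃ c : unitInterval → Cycle G Y H, c 0 = a ∧ c 1 = b ∧
    (∀ t, (c t).γ = a.γ ∧ (c t).ρ = a.ρ ∧ (c t).U = a.U) ∧ Continuous fun t => (c t).F

/-- `c` is the orthogonal direct sum of `a` and `b`. -/
structure OrthSum (a : Cycle G Y H) (b : Cycle G Y K) (c : Cycle G Y L) : Prop where
  ex : ∃ v w, Embeds a c v ∧ Embeds b c w ∧ (∀ x y, inner ℂ (v x) (w y) = 0) ∧
    ∀ z, ∃ x y, z = v x + w y

/-- `b` is the push forward of `a` along the proper map `f`: functions on `Y'` act through their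
composition with `f`. -/
structure IsPush (f : CocompactMap Y Y') (a : Cycle G Y H) (b : Cycle G Y' H) : Prop where
  γ : b.γ = a.γ
  ρ : ∀ φ, b.ρ φ = a.ρ (φ.comp f)
  U : b.U = a.U
  F : b.F = a.F

theorem exists_push (f : CocompactMap Y Y') (hf : Equivariant G f) (a : Cycle G Y H) :
    ∃ b, IsPush f a b :=
  ⟨⟨a.γ, a.ρ.comp ⟨ZeroAtInftyContinuousMap.compNonUnitalAlgHom f, fun _ => rfl⟩, a.U, a.F,
    a.γ_star, a.γ_sq, fun _ => a.ρ_even _, a.U_even, a.F_odd,
    fun g φ => (a.covariant g (φ.comp f)).trans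
      (congrArg a.ρ (ZeroAtInftyContinuousMap.ext fun y => congrArg φ (hf g⁻¹ y))),
    fun _ => a.compact_sq _, fun _ => a.compact_star _, fun _ => a.compact_comm _,
    fun g _ => a.compact_inv g _⟩, rfl, fun _ => rfl, rfl, rfl⟩

/-- The push forward of a cycle along an equivariant proper map. -/
noncomputable def push (f : CocompactMap Y Y') (hf : Equivariant G f) (a : Cycle G Y H) :
    Cycle G Y' H :=
  (exists_push f hf a).choose

theorem push_spec (f : CocompactMap Y Y') (hf : Equivariant G f) (a : Cycle G Y H) :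
    IsPush f a (push f hf a) :=
  (exists_push f hf a).choose_spec

theorem Embeds.push {a : Cycle G Y H} {c : Cycle G Y K} {v : H →ₗᵢ[ℂ] K} (h : Embeds a c v)
    (f : CocompactMap Y Y') (hf : Equivariant G f) : Embeds (push f hf a) (push f hf c) v := by
  obtain ⟨a1, a2, a3, a4⟩ := push_spec f hf a
  obtain ⟨c1, c2, c3, c4⟩ := push_spec f hf c
  exact ⟨a1 ▸ c1 ▸ h.γ, fun φ => a2 φ ▸ c2 φ ▸ h.ρ _, a3 ▸ c3 ▸ h.U, a4 ▸ c4 ▸ h.F⟩

end

variable (G Y) in
/-- A separable Hilbert space with a cycle on it. -/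
structure Cyc : Type 1 where
  H : Type
  [nacg : NormedAddCommGroup H]
  [ips : InnerProductSpace ℂ H]
  [cs : CompleteSpace H]
  [sep : SeparableSpace H]
  Z : Cycle G Y H

/-- Unitary equivalence and operator homotopy. -/
inductive Cyc.Sim : Cyc G Y → Cyc G Y → Prop
  | unitary {H K : Type} [NormedAddCommGroup H] [InnerProductSpace ℂ H] [CompleteSpace H]
      [SeparableSpace H] [NormedAddCommGroup K] [InnerProductSpace ℂ K] [CompleteSpace K]
      [SeparableSpace K] (a : Cycle G Y H) (b : Cycle G Y K) :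
      UnitEq a b → Cyc.Sim ⟨H, a⟩ ⟨K, b⟩
  | homotopy {H : Type} [NormedAddCommGroup H] [InnerProductSpace ℂ H] [CompleteSpace H]
      [SeparableSpace H] (a b : Cycle G Y H) : OpHtpy a b → Cyc.Sim ⟨H, a⟩ ⟨H, b⟩

/-- The third cycle is the direct sum of the first two. -/
inductive Cyc.IsSum : Cyc G Y → Cyc G Y → Cyc G Y → Prop
  | mk {H K L : Type} [NormedAddCommGroup H] [InnerProductSpace ℂ H] [CompleteSpace H]
      [SeparableSpace H] [NormedAddCommGroup K] [InnerProductSpace ℂ K] [CompleteSpace K]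
      [SeparableSpace K] [NormedAddCommGroup L] [InnerProductSpace ℂ L] [CompleteSpace L]
      [SeparableSpace L] (a : Cycle G Y H) (b : Cycle G Y K) (c : Cycle G Y L) :
      OrthSum a b c → Cyc.IsSum ⟨H, a⟩ ⟨K, b⟩ ⟨L, c⟩

variable (G Y) in
/-- Kasparov's equivariant K-homology group `KK^G_0(C₀(Y), ℂ)`. -/
abbrev KK : Type 1 := Pres (Cyc.Sim (G := G) (Y := Y)) Cyc.IsSum

/-- The push forward of a cycle. -/
noncomputable def Cyc.push (f : CocompactMap Y Y') (hf : Equivariant G f)
    (c : Cyc G Y) : Cyc G Y' :=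
  @Cyc.mk G Y' _ _ _ _ c.H c.nacg c.ips c.cs c.sep
    (@P089GT.push G Y Y' _ _ _ _ _ _ _ c.H c.nacg c.ips c.cs f hf c.Z)

theorem Cyc.push_sim (f : CocompactMap Y Y') (hf : Equivariant G f) :
    ∀ a b : Cyc G Y, a.Sim b → (a.push f hf).Sim (b.push f hf) := by
  rintro _ _ (⟨a, b, u, h1, h2⟩ | ⟨_, _, c, rfl, rfl, h1, h2⟩)
  · exact .unitary _ _ ⟨u, h1.push f hf, h2⟩
  · have e := fun t => push_spec f hf (c t)
    refine .homotopy _ _ ⟨fun t => P089GT.push f hf (c t), rfl, rfl, fun t =>
      ⟨by rw [(e t).γ, (e 0).γ, (h1 t).1], DFunLike.ext _ _ fun φ => ?_,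
        by rw [(e t).U, (e 0).U, (h1 t).2.2]⟩, by simpa only [fun t => (e t).F] using h2⟩
    rw [(e t).ρ, (e 0).ρ, (h1 t).2.1]

theorem Cyc.push_isSum (f : CocompactMap Y Y') (hf : Equivariant G f) :
    ∀ a b c : Cyc G Y, a.IsSum b c → (a.push f hf).IsSum (b.push f hf) (c.push f hf) := by
  rintro _ _ _ ⟨a, b, c, v, w, h1, h2, h3⟩
  exact .mk _ _ _ ⟨v, w, h1.push f hf, h2.push f hf, h3⟩

/-- Functoriality of `KK^G_0(C₀(Y), ℂ)` for equivariant proper maps. -/
noncomputable def KK.push (f : CocompactMap Y Y') (hf : Equivariant G f) :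
    KK G Y →+ KK G Y' :=
  Pres.map (Cyc.push f hf) (Cyc.push_sim f hf) (Cyc.push_isSum f hf)

end

/-! ### The classifying space for proper actions and its K-homology -/

section

variable (G X : Type) [Group G] [TopologicalSpace X] [MulAction G X] [ContinuousConstSMul G X]
  [CWComplex (Set.univ : Set X)]

/-- `X` is a classifying space for proper actions of the discrete group `G`: a Hausdorff CW
complex on which `G` acts by homeomorphisms that permute the open cells, such that an element
which maps an open cell to itself fixes it pointwise (a `G`-CW complex), all stabilisers are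
finite (properness), and the fixed-point set of a subgroup is contractible if the subgroup is
finite and empty if it is infinite. -/
structure IsEG : Prop where
  t2 : T2Space X
  cells : ∀ (g : G) n (i : RelCWComplex.cell (Set.univ : Set X) n),
    ∃ j : RelCWComplex.cell (Set.univ : Set X) n,
      (g • ·) '' RelCWComplex.openCell n i = RelCWComplex.openCell n j
  fix : ∀ (g : G) n (i : RelCWComplex.cell (Set.univ : Set X) n),
    (g • ·) '' RelCWComplex.openCell n i = RelCWComplex.openCell n i →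
      ∀ x ∈ RelCWComplex.openCell n i, g • x = x
  proper : ∀ x : X, Finite (MulAction.stabilizer G x)
  contractible : ∀ S : Subgroup G, Finite S → ContractibleSpace (MulAction.fixedPoints S X)
  empty : ∀ S : Subgroup G, Infinite S → MulAction.fixedPoints S X = ∅

/-- A `G`-compact invariant subcomplex of `X`. -/
structure Sub : Type where
  Y : SubMulAction G X
  subcomplex : ∃ C : CWComplex.Subcomplex (Set.univ : Set X), (C : Set X) = Y
  compact : CompactSpace (MulAction.orbitRel.Quotient G Y)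

/-- The order by inclusion. -/
instance subOrder : Preorder (Sub G X) := Preorder.lift Sub.Y

noncomputable instance subDecEq : DecidableEq (Sub G X) := Classical.decEq _

/-- The underlying space of a subcomplex. -/
def Sub.T (Y : Sub G X) : Type := Y.Y

instance subTop (Y : Sub G X) : TopologicalSpace Y.T := instTopologicalSpaceSubtype

instance subAct (Y : Sub G X) : MulAction G Y.T := Y.Y.mulAction

instance subCont (Y : Sub G X) : ContinuousConstSMul G Y.T :=
  ⟨fun g => ((continuous_const_smul g).comp continuous_subtype_val).subtype_mk _⟩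

omit [ContinuousConstSMul G X] in
theorem Sub.mem (Y Y' : Sub G X) (h : Y ≤ Y') (y : Y.T) : y.1 ∈ Y'.Y := h y.2

/-- The inclusion map. -/
def Sub.inclFun (Y Y' : Sub G X) (h : Y ≤ Y') (y : Y.T) : Y'.T := ⟨y.1, Sub.mem G X Y Y' h y⟩

omit [ContinuousConstSMul G X] in
theorem Sub.incl_cont (Y Y' : Sub G X) (h : Y ≤ Y') : Continuous (Sub.inclFun G X Y Y' h) :=
  continuous_subtype_val.subtype_mk _

omit [ContinuousConstSMul G X] in
theorem Sub.incl_proper (Y Y' : Sub G X) (h : Y ≤ Y') :
    Filter.Tendsto (Sub.inclFun G X Y Y' h) (Filter.cocompact Y.T) (Filter.cocompact Y'.T) := by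
  obtain ⟨C, hC⟩ := Y.subcomplex
  have h1 : IsClosed (Y.Y : Set X) := hC ▸ C.closed
  exact (IsClosedEmbedding.inclusion (s := (Y.Y : Set X)) (t := (Y'.Y : Set X)) h
    (h1.preimage continuous_subtype_val)).tendsto_cocompact

/-- The inclusion of a subcomplex as a proper map. -/
def Sub.incl (Y Y' : Sub G X) (h : Y ≤ Y') : CocompactMap Y.T Y'.T :=
  ⟨⟨Sub.inclFun G X Y Y' h, Sub.incl_cont G X Y Y' h⟩, Sub.incl_proper G X Y Y' h⟩

omit [ContinuousConstSMul G X] in
theorem Sub.incl_smul (Y Y' : Sub G X) (h : Y ≤ Y') : Equivariant G (Sub.incl G X Y Y' h) :=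
  fun _ _ => rfl

/-- The group `KK^G_0(C₀(Y), ℂ)` of a subcomplex. -/
def Sub.KK (Y : Sub G X) : Type 1 := P089GT.KK G Y.T

instance subGroup (Y : Sub G X) : AddCommGroup Y.KK := presGroup _ _

/-- The map of K-homology groups induced by an inclusion of subcomplexes. -/
noncomputable def Sub.push (Y Y' : Sub G X) (h : Y ≤ Y') : Y.KK →+ Y'.KK :=
  KK.push (Sub.incl G X Y Y' h) (Sub.incl_smul G X Y Y' h)

/-- The equivariant K-homology with `G`-compact supports,
`K_0^G(X) = lim_Y KK^G_0(C₀(Y), ℂ)`. -/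
def KG0 : Type 1 := AddCommGroup.DirectLimit (Sub.KK G X) (Sub.push G X)

noncomputable instance kg0Group : AddCommGroup (KG0 G X) :=
  AddCommGroup.DirectLimit.addCommGroup _ _

/-- The class in `K_0^G(X)` of a cycle over `Y`. -/
noncomputable def KG0.cls (Y : Sub G X) (c : Cyc G Y.T) : KG0 G X :=
  limOf (Sub.push G X) Y (Pres.of _ _ c)

end

/-! ### The assembly map -/

/-- The product of the cutoff projection `p` with the descent of a cycle with grading `γ` and
operator `F` has the module `p (H ⊗ C*_r(G))`, with even and odd parts `p₀`, `p₁`, and the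
operator `p (F ⊗ 1) p`; this is the matrix of its index. -/
noncomputable def idxMat {G B : Type} [Group G] [Ring B] [Algebra ℂ B] (p : MonoidAlgebra B G)
    (γ F : B) : Matrix (Fin 2) (Fin 2) (MonoidAlgebra B G) :=
  let p₀ := p * MonoidAlgebra.single 1 ((2 : ℂ)⁻¹ • (1 + γ))
  let p₁ := p * MonoidAlgebra.single 1 ((2 : ℂ)⁻¹ • (1 - γ))
  indexMat p₀ p₁ (p₁ * MonoidAlgebra.single 1 F * p₀) (p₀ * MonoidAlgebra.single 1 F * p₁)

section

variable {G Y H E : Type} [Group G] [TopologicalSpace Y] [MulAction G Y]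
  [ContinuousConstSMul G Y] [NormedAddCommGroup H] [InnerProductSpace ℂ H] [CompleteSpace H]
  [NormedAddCommGroup E] [InnerProductSpace ℂ E]

/-- `M` is the index matrix, over `C*_r(G) ⊗ 𝒦`, of the product of the descent of `Z` with the
cutoff projection `p`, for some cutoff function `w` and some embedding of `H` in `ℓ²(ℕ)`. -/
def IsIndexMat (c : HilbertBasis (G × ℕ) ℂ E) (Z : Cycle G Y H)
    (M : Matrix (Fin 2) (Fin 2) (St c)) : Prop :=
  ∃ (w : C₀(Y, ℂ)) (p : MonoidAlgebra (H →L[ℂ] H) G) (ι : Type) (d : HilbertBasis ι ℂ H)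
    (u : ι ↪ ℕ), IsCutoff G Y w ∧ Z.IsProj w p ∧ ∀ j k, IsSum c d u (idxMat p Z.γ Z.F j k) (M j k).op

/-- `x` is the analytic index of `Z`: index matrices exist, and each of them gives `x`. -/
def IsIndex (c : HilbertBasis (G × ℕ) ℂ E) (Z : Cycle G Y H) (x : KZero (St c)) : Prop :=
  (∃ M, IsIndexMat c Z M) ∧ ∀ M, IsIndexMat c Z M → IsDiff M x

end

section

variable {G K : Type} (X : Type) [Group G] [TopologicalSpace X] [MulAction G X]
  [ContinuousConstSMul G X] [CWComplex (Set.univ : Set X)] [NormedAddCommGroup K]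
  [InnerProductSpace ℂ K]

/-- `μ : K_0^G(X) → K_0(C*_r(G))` is the assembly map: the stabilisation map `κ` is injective,
and `κ (μ [Z])` is the analytic index of `Z`. -/
def IsAssembly (b : HilbertBasis G ℂ K) (μ : KG0 G X → KZero (Cr b)) : Prop :=
  ∀ (E : Type) [NormedAddCommGroup E] [InnerProductSpace ℂ E] [CompleteSpace E]
    (c : HilbertBasis (G × ℕ) ℂ E), ExInj fun κ => Induces (Corner b c) κ ∧
    ∀ (Y : Sub G X) (H : Type) [NormedAddCommGroup H] [InnerProductSpace ℂ H] [CompleteSpace H]
      [SeparableSpace H] (Z : Cycle G Y.T H), IsIndex c Z (κ (μ (KG0.cls G X Y ⟨H, Z⟩)))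

/-- The assembly map of `X` exists, is unique, and is not surjective; some class has no positive
multiple in the image, and the class of the unit is in the image. -/
def AssemblyFails (b : HilbertBasis G ℂ K) : Prop := Fails (IsAssembly X b) (unitCls (Cr b))

end

end Vale.Agent.P089GT
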